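import Mathlib

namespace Vale.Agent.Lib.P123.H45

open scoped ComplexConjugate
open Finset

variable {H : Type*} [NormedAddCommGroup H] [InnerProductSpace ℂ H]

/-- For an isometry `V` with adjoint `Vs` and a unit vector `e` killed by `Vs`, the vectors
`V ^ k e` are orthonormal. -/
theorem inner_pow_pow (V Vs : H →L[ℂ] H)
    (hadj : ∀ x y, inner ℂ (Vs x) y = inner ℂ x (V y))
    (hV : ∀ x y, inner ℂ (V x) (V y) = inner ℂ x y)
    (e : H) (he : ‖e‖ = 1) (hVe : Vs e = 0) :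
    ∀ j k : ℕ, inner ℂ ((V ^ j) e) ((V ^ k) e) = if j = k then 1 else 0 := by
  intro j
  induction j with
  | zero =>
    intro k
    cases k with
    | zero => simp [inner_self_eq_norm_sq_to_K, he]
    | succ k =>
      rw [pow_succ', mul_apply_eq_comp]
      simp only [pow_zero, one_apply_eq_self]
      rw [← hadj, hVe, inner_zero_left]
      simp
  | succ j ih =>
    intro k
    cases k with
    | zero =>
      rw [pow_succ', mul_apply_eq_comp]
      simp only [pow_zero, one_apply_eq_self]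
      rw [← inner_conj_symm, ← hadj, hVe, inner_zero_left]
      simp
    | succ k =>
      rw [pow_succ', pow_succ', mul_apply_eq_comp, mul_apply_eq_comp, hV, ih k]
      simp

/-- The test vector `∑_{k ≤ n} ζ ^ k • V ^ k e`. -/
noncomputable def yvec (V : H →L[ℂ] H) (e : H) (ζ : ℂ) (n : ℕ) : H :=
  ∑ k ∈ range (n + 1), ζ ^ k • (V ^ k) e

theorem conj_pow_mul_pow (ζ : ℂ) (hζ : ‖ζ‖ = 1) (k : ℕ) : conj (ζ ^ k) * ζ ^ k = 1 := by
  rw [map_pow, ← mul_pow, Complex.conj_mul', hζ]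
  simp

theorem inner_yvec_self (V Vs : H →L[ℂ] H)
    (hadj : ∀ x y, inner ℂ (Vs x) y = inner ℂ x (V y))
    (hV : ∀ x y, inner ℂ (V x) (V y) = inner ℂ x y)
    (e : H) (he : ‖e‖ = 1) (hVe : Vs e = 0) (ζ : ℂ) (hζ : ‖ζ‖ = 1) (n : ℕ) :
    inner ℂ (yvec V e ζ n) (yvec V e ζ n) = ((n : ℂ) + 1) := by
  unfold yvec
  rw [sum_inner]
  simp_rw [inner_sum, inner_smul_left, inner_smul_right, inner_pow_pow V Vs hadj hV e he hVe]
  simp only [mul_ite, mul_one, mul_zero, Finset.sum_ite_eq, Finset.mem_range]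
  rw [Finset.sum_congr rfl (fun j hj => by
    rw [if_pos (Finset.mem_range.mp hj), conj_pow_mul_pow ζ hζ j])]
  simp

theorem inner_yvec_V (V Vs : H →L[ℂ] H)
    (hadj : ∀ x y, inner ℂ (Vs x) y = inner ℂ x (V y))
    (hV : ∀ x y, inner ℂ (V x) (V y) = inner ℂ x y)
    (e : H) (he : ‖e‖ = 1) (hVe : Vs e = 0) (ζ : ℂ) (hζ : ‖ζ‖ = 1) (n : ℕ) :
    inner ℂ (yvec V e ζ n) (V (yvec V e ζ n)) = (n : ℂ) * conj ζ := by
  have hVy : V (yvec V e ζ n) = ∑ k ∈ range (n + 1), ζ ^ k • (V ^ (k + 1)) e := by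
    unfold yvec
    rw [map_sum]
    refine Finset.sum_congr rfl fun k _ => ?_
    rw [map_smul, pow_succ', mul_apply_eq_comp]
  rw [hVy]
  unfold yvec
  rw [sum_inner]
  simp_rw [inner_sum, inner_smul_left, inner_smul_right, inner_pow_pow V Vs hadj hV e he hVe]
  rw [Finset.sum_comm]
  simp only [mul_ite, mul_one, mul_zero, Finset.sum_ite_eq', Finset.mem_range]
  rw [Finset.sum_range_succ, if_neg (lt_irrefl _), add_zero]
  rw [Finset.sum_congr rfl (fun k hk => by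
    rw [if_pos (Nat.succ_lt_succ (Finset.mem_range.mp hk)), pow_succ', map_mul, mul_assoc,
      conj_pow_mul_pow ζ hζ k, mul_one])]
  simp

/-- Step (5): with `A = Vs + γ • V` (`Vs` the adjoint of the isometry `V`, `e` a unit vector
killed by `Vs`), every point `ζ + γ * conj ζ`, `‖ζ‖ = 1`, is a limit of points of the numerical
range `{inner x (A x) : ‖x‖ = 1}`; hence a continuous `f` bounded by `M` on the numerical range
is bounded by `M` at these points. -/
theorem curve_le (V Vs : H →L[ℂ] H)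
    (hadj : ∀ x y, inner ℂ (Vs x) y = inner ℂ x (V y))
    (hV : ∀ x y, inner ℂ (V x) (V y) = inner ℂ x y)
    (e : H) (he : ‖e‖ = 1) (hVe : Vs e = 0) (γ : ℂ) (f : ℂ → ℝ) (hf : Continuous f) (M : ℝ)
    (hM : ∀ x : H, ‖x‖ = 1 → f (inner ℂ x ((Vs + γ • V) x)) ≤ M)
    (ζ : ℂ) (hζ : ‖ζ‖ = 1) : f (ζ + γ * conj ζ) ≤ M := by
  have key : ∀ n : ℕ, f (((n : ℂ) / ((n : ℂ) + 1)) * (ζ + γ * conj ζ)) ≤ M := by
    intro n
    set y := yvec V e ζ n with hy
    have hyy : inner ℂ y y = ((n : ℂ) + 1) := inner_yvec_self V Vs hadj hV e he hVe ζ hζ n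
    have hyV : inner ℂ y (V y) = (n : ℂ) * conj ζ := inner_yvec_V V Vs hadj hV e he hVe ζ hζ n
    have hyVs : inner ℂ y (Vs y) = (n : ℂ) * ζ := by
      rw [← inner_conj_symm, hadj, hyV]
      simp
    have hnorm : ((‖y‖ : ℂ)) ^ 2 = (n : ℂ) + 1 := by
      have h := inner_self_eq_norm_sq_to_K (𝕜 := ℂ) y
      rw [hyy] at h
      exact h.symm
    have hn1 : ((n : ℂ) + 1) ≠ 0 := by
      exact_mod_cast Nat.succ_ne_zero n
    have hy0 : y ≠ 0 := by
      intro h0
      rw [h0, norm_zero] at hnorm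
      apply hn1
      rw [← hnorm]
      simp
    have hx := hM ((‖y‖⁻¹ : ℂ) • y) (norm_smul_inv_norm hy0)
    have hc2 : (‖y‖⁻¹ : ℂ) * (‖y‖⁻¹ : ℂ) = 1 / ((n : ℂ) + 1) := by
      rw [← hnorm]
      field_simp
    have hcc : conj (‖y‖⁻¹ : ℂ) = (‖y‖⁻¹ : ℂ) := by
      rw [map_inv₀, Complex.conj_ofReal]
    have hval : inner ℂ ((‖y‖⁻¹ : ℂ) • y) ((Vs + γ • V) ((‖y‖⁻¹ : ℂ) • y)) =
        ((n : ℂ) / ((n : ℂ) + 1)) * (ζ + γ * conj ζ) := by
      rw [map_smul, inner_smul_left, inner_smul_right, add_apply,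
        smul_apply, inner_add_right, inner_smul_right, hyV, hyVs, hcc]
      linear_combination ((n : ℂ) * ζ + γ * ((n : ℂ) * conj ζ)) * hc2
    rw [hval] at hx
    exact hx
  have hlim : Filter.Tendsto (fun n : ℕ => ((n : ℂ) / ((n : ℂ) + 1)) * (ζ + γ * conj ζ))
      Filter.atTop (nhds (ζ + γ * conj ζ)) := by
    have h1 := (tendsto_natCast_div_add_atTop (1 : ℂ)).mul_const (ζ + γ * conj ζ)
    simpa using h1
  exact le_of_tendsto' ((hf.tendsto _).comp hlim) key

/-- Step (5) for a non-unitary isometry `V` on a Hilbert space, `A = star V + γ • V`. -/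
theorem curve_le_star [CompleteSpace H] (V : H →L[ℂ] H) (hV : star V * V = 1)
    (hV' : V * star V ≠ 1) (γ : ℂ) (f : ℂ → ℝ) (hf : Continuous f) (M : ℝ)
    (hM : ∀ x : H, ‖x‖ = 1 → f (inner ℂ x ((star V + γ • V) x)) ≤ M)
    (ζ : ℂ) (hζ : ‖ζ‖ = 1) : f (ζ + γ * conj ζ) ≤ M := by
  have hadj : ∀ x y, inner ℂ ((star V) x) y = inner ℂ x (V y) := by
    intro x y
    rw [ContinuousLinearMap.star_eq_adjoint, ContinuousLinearMap.adjoint_inner_left]
  have hVV : ∀ x, (star V) (V x) = x := by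
    intro x
    have h := congrArg (fun T : H →L[ℂ] H => T x) hV
    simpa using h
  have hiso : ∀ x y, inner ℂ (V x) (V y) = inner ℂ x y := by
    intro x y
    rw [← hadj, hVV]
  obtain ⟨x, hx⟩ : ∃ x, V ((star V) x) ≠ x := by
    by_contra hcon
    push Not at hcon
    apply hV'
    ext x
    simpa using hcon x
  set u : H := x - V ((star V) x) with hu
  have hu0 : u ≠ 0 := by
    intro h0
    apply hx
    rw [hu, sub_eq_zero] at h0
    exact h0.symm
  have hVu : (star V) u = 0 := by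
    rw [hu, map_sub, hVV, sub_self]
  have hnu : ‖((‖u‖⁻¹ : ℂ)) • u‖ = 1 := norm_smul_inv_norm hu0
  have hVe : (star V) (((‖u‖⁻¹ : ℂ)) • u) = 0 := by
    rw [map_smul, hVu, smul_zero]
  exact curve_le V (star V) hadj hiso _ hnu hVe γ f hf M hM ζ hζ

end Vale.Agent.Lib.P123.H45
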